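import Claimed.Agent.R257.TR.FactS.Fin

/-!
# R257 / TR / FactS / Main : transfer to the limit; EXITS = the fields `slope`, `r_nonneg`, `onepos`, `pi1`, `pi2`, `pi3` of `TGood`      (architect helper53)

`tr_fs_adapt` : a finite-scale count in the convention of `GeoC` (`Sm K δ₀ → Cnt … (er K * L^a)`) gives `[A | B] ≤ a` almost surely on an open cylinder.     REUSABLE by all of FACTS.
EXITS `tr_fs_slope`, `tr_fs_r_nonneg`, `tr_fs_onepos`, `tr_fs_pi1`, `tr_fs_pi2`, `tr_fs_pi3`: stated exactly as the fields, under `∀ᵐ x ∂μ` for any limiting law `μ`.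
-/

set_option autoImplicit false

namespace Claimed.Agent.R257.TR

open Claimed.Agent.R255 Claimed.Agent.R257 MeasureTheory Filter Topology
open scoped BigOperators ENNReal InnerProductSpace
open Classical

variable {n : ℕ} {R₀ c₁ Cτ : ℝ} {M : ℕ → TModel n}

/-- **transfer of a count** -/
theorem tr_fs_adapt (hM : TSeqOk M R₀ c₁ Cτ) (hreg : ISeqReg (tSys M)) (μ : Measure (TSp n)) [IsProbabilityMeasure μ] (hμ : (iSeqV (tSys M)).IsLim μ)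
    (U : Set (TSp n)) (T : Finset (Finset (TNm n) ⊕ TEx n)) (hU : IsOpen U) (hT : FinDep U T) (A B : Finset (TNm n)) (a K δ₀ : ℝ) (hδ₀ : 0 < δ₀)
    (h : ∀ m, (M m).Sm K δ₀ → ∀ ω₀ : (M m).Om,
      (M m).sys.Cnt (fun ω => (M m).sys.vec ω ∈ U ∧ 0 < (M m).law.p ω ∧ (M m).sys.Agr B ω ω₀) A ((M m).er K * (M m).L ^ a)) :
    ∀ᵐ x ∂μ, x ∈ U → cI x A B ≤ a := by
  refine tr_calc_det (tSys M) hreg μ hμ U T hU hT A B a ?_
  intro δ hδ
  filter_upwards [tr_geo_sm_ev hM K δ₀ hδ₀, tr_geo_sm_ev hM K δ hδ] with m h1 h2 ω₀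
  refine tr_geo_cnt_mono _ _ _ _ _ _ (fun ω hω => hω) ?_ (h m h1 ω₀)
  have hL : 0 < (M m).L := tr_geo_L_pos (hM.ok m)
  show (M m).er K * (M m).L ^ a ≤ (M m).L ^ (a + δ)
  rw [Real.rpow_add hL, mul_comm]
  exact mul_le_mul_of_nonneg_left h2 (Real.rpow_nonneg hL.le _)

/-- the unrestricted form -/
theorem tr_fs_adapt_univ (hM : TSeqOk M R₀ c₁ Cτ) (hreg : ISeqReg (tSys M)) (μ : Measure (TSp n)) [IsProbabilityMeasure μ] (hμ : (iSeqV (tSys M)).IsLim μ)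
    (A B : Finset (TNm n)) (a K δ₀ : ℝ) (hδ₀ : 0 < δ₀)
    (h : ∀ m, (M m).Sm K δ₀ → ∀ ω₀ : (M m).Om,
      (M m).sys.Cnt (fun ω => 0 < (M m).law.p ω ∧ (M m).sys.Agr B ω ω₀) A ((M m).er K * (M m).L ^ a)) :
    ∀ᵐ x ∂μ, cI x A B ≤ a := by
  have := tr_fs_adapt hM hreg μ hμ Set.univ ∅ isOpen_univ (fun _ _ _ => Iff.rfl) A B a K δ₀ hδ₀
    (fun m hm ω₀ => tr_geo_cnt_mono _ _ _ _ _ _ (fun ω hω => hω.2) le_rfl (h m hm ω₀))
  filter_upwards [this] with x hx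
  exact hx (Set.mem_univ x)

/-- EXIT: field `slope` -/
theorem tr_fs_slope (hM : TSeqOk M R₀ c₁ Cτ) (hreg : ISeqReg (tSys M)) (μ : Measure (TSp n)) [IsProbabilityMeasure μ] (hμ : (iSeqV (tSys M)).IsLim μ) :
    ∀ᵐ x ∂μ, ∀ (i j : Fin (n + 1)) (bs r a : ℚ), i ≠ j → 0 < a → a < bs → 0 ≤ r → r ≤ 1 → x (Sum.inr (TEx.r i j)) < (a : ℝ) / 2 →
      cI x {TNm.X r} ({TNm.T i true} ∪ {TNm.Z (rf0 n) bs r j} ∪ nD0 (rf0 n) bs) ≤ ((n : ℝ) + 1) * a := by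
  obtain ⟨K, -, h⟩ := tr_fs_fin_slope n R₀
  rw [ae_all_iff]; intro i
  rw [ae_all_iff]; intro j
  rw [ae_all_iff]; intro bs
  rw [ae_all_iff]; intro r
  rw [ae_all_iff]; intro a
  by_cases h1 : 0 < a ∧ a < bs ∧ 0 ≤ r ∧ r ≤ 1
  · obtain ⟨ha, hab, hr0, hr1⟩ := h1
    have haR : (0 : ℝ) < a := by exact_mod_cast ha
    have := tr_fs_adapt hM hreg μ hμ {x | x (Sum.inr (TEx.r i j)) < (a : ℝ) / 2} {Sum.inr (TEx.r i j)}
      (isOpen_lt (continuous_apply _) continuous_const)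
      (fun x y hxy => by
        have e := hxy (Sum.inr (TEx.r i j)) (Finset.mem_singleton_self _)
        simp only [Set.mem_setOf_eq, e])
      {TNm.X r} ({TNm.T i true} ∪ {TNm.Z (rf0 n) bs r j} ∪ nD0 (rf0 n) bs) (((n : ℝ) + 1) * a / 2) K ((a : ℝ) / 2) (by positivity)
      (fun m hm ω₀ => h c₁ Cτ (M m) (hM.ok m) i j bs r a ha hab hr0 hr1 hm ω₀)
    filter_upwards [this] with x hx _ _ _ _ _ hxa
    have h2 := hx hxa
    have h3 : 0 ≤ ((n : ℝ) + 1) * a := by positivity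
    linarith
  · exact Eventually.of_forall fun x _ a1 a2 a3 a4 => absurd ⟨a1, a2, a3, a4⟩ h1

/-- EXIT: field `r_nonneg` -/
theorem tr_fs_r_nonneg (μ : Measure (TSp n)) [IsProbabilityMeasure μ] (hμ : (iSeqV (tSys M)).IsLim μ) :
    ∀ᵐ x ∂μ, ∀ i j : Fin (n + 1), 0 ≤ x (Sum.inr (TEx.r i j)) := by
  rw [ae_all_iff]; intro i
  rw [ae_all_iff]; intro j
  have h0 : μ {x | x (Sum.inr (TEx.r i j)) < 0} = 0 := by
    refine tr_lim_null _ μ hμ _ {Sum.inr (TEx.r i j)} (isOpen_lt (continuous_apply _) continuous_const)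
      (fun x y hxy => by
        have e := hxy (Sum.inr (TEx.r i j)) (Finset.mem_singleton_self _)
        simp only [Set.mem_setOf_eq, e]) ?_
    have e : (iSeqV (tSys M)).prU {x | x (Sum.inr (TEx.r i j)) < 0} = fun _ => 0 := by
      funext m
      refine tr_pr_eq_zero _ _ fun ω _ hω => ?_
      exact absurd (tr_fs_xv_nonneg (M m) i j ω) (not_le.2 hω)
    rw [e]
    exact tendsto_const_nhds
  rw [ae_iff]
  refine measure_mono_null (fun x hx => ?_) h0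
  exact not_le.1 hx

/-- EXIT: field `onepos` -/
theorem tr_fs_onepos (hM : TSeqOk M R₀ c₁ Cτ) (hc : 0 < c₁) (hc1 : c₁ ≤ 1) (μ : Measure (TSp n)) [IsProbabilityMeasure μ] (hμ : (iSeqV (tSys M)).IsLim μ) :
    ∀ᵐ x ∂μ, ∀ i j k : Fin (n + 1), j ≠ i → k ≠ i → j ≠ k → x (Sum.inr (TEx.r i j)) ≤ 0 ∨ x (Sum.inr (TEx.r i k)) ≤ 0 := by
  obtain ⟨K, -, h⟩ := tr_fs_fin_onepos n R₀
  rw [ae_all_iff]; intro i
  rw [ae_all_iff]; intro j
  rw [ae_all_iff]; intro k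
  by_cases h1 : j ≠ i ∧ k ≠ i ∧ j ≠ k
  · obtain ⟨hj, hk, hjk⟩ := h1
    have hnull : ∀ u : ℝ, 0 < u → u ≤ 1 / 8 → μ {x | u < x (Sum.inr (TEx.r i j)) ∧ u < x (Sum.inr (TEx.r i k))} = 0 := by
      intro u hu hu8
      refine tr_lim_null _ μ hμ _ {Sum.inr (TEx.r i j), Sum.inr (TEx.r i k)}
        ((isOpen_lt continuous_const (continuous_apply _)).inter (isOpen_lt continuous_const (continuous_apply _)))
        (fun x y hxy => by
          have e1 := hxy (Sum.inr (TEx.r i j)) (by simp)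
          have e2 := hxy (Sum.inr (TEx.r i k)) (by simp)
          simp only [Set.mem_setOf_eq, e1, e2]) ?_
      refine tr_tendsto_zero_of_le _ (fun m => (M m).er K * (M m).L ^ (-(c₁ * u))) (fun m => tr_info_pr_nonneg _ _) ?_
        (tr_geo_sm_tendsto hM K (c₁ * u) (by positivity))
      filter_upwards [tr_geo_sm_ev hM K u hu] with m hm
      have := h c₁ Cτ (M m) (hM.ok m) hc.le hc1 i j k hj hk hjk u hu.le hu8 hm
      rw [neg_mul] at this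
      exact this
    have hall : ∀ N : ℕ, μ {x | 1 / ((N : ℝ) + 1) / 8 < x (Sum.inr (TEx.r i j)) ∧ 1 / ((N : ℝ) + 1) / 8 < x (Sum.inr (TEx.r i k))} = 0 := by
      intro N
      refine hnull _ (by positivity) ?_
      have : 1 / ((N : ℝ) + 1) ≤ 1 := by
        rw [div_le_one (by positivity)]
        have : (0 : ℝ) ≤ N := Nat.cast_nonneg N
        linarith
      linarith
    rw [ae_iff]
    refine measure_mono_null (fun x hx => ?_) (measure_iUnion_null hall)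
    simp only [Set.mem_setOf_eq, Classical.not_imp, not_or, not_le] at hx
    obtain ⟨-, -, -, hx1, hx2⟩ := hx
    obtain ⟨N, hN⟩ := exists_nat_one_div_lt (lt_min hx1 hx2)
    have hpos : 0 < 1 / ((N : ℝ) + 1) := by positivity
    refine Set.mem_iUnion.2 ⟨N, ?_, ?_⟩
    · have := lt_of_lt_of_le hN (min_le_left _ _)
      linarith
    · have := lt_of_lt_of_le hN (min_le_right _ _)
      linarith
  · exact Eventually.of_forall fun x a1 a2 a3 => absurd ⟨a1, a2, a3⟩ h1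

/-- EXIT: field `pi1` -/
theorem tr_fs_pi1 (hM : TSeqOk M R₀ c₁ Cτ) (hreg : ISeqReg (tSys M)) (μ : Measure (TSp n)) [IsProbabilityMeasure μ] (hμ : (iSeqV (tSys M)).IsLim μ) :
    ∀ᵐ x ∂μ, ∀ (bs s r : ℚ) (j : Fin (n + 1)), j ≠ 0 → 0 < bs → 0 ≤ s → s ≤ r → r ≤ 1 → r - s ≤ bs →
      cI x {TNm.Pi bs r j} ({TNm.T 0 true} ∪ {TNm.X s} ∪ nD1 n bs) ≤ 0 := by
  obtain ⟨K, -, h⟩ := tr_fs_fin_pi1 n R₀
  rw [ae_all_iff]; intro bs
  rw [ae_all_iff]; intro s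
  rw [ae_all_iff]; intro r
  rw [ae_all_iff]; intro j
  by_cases h1 : 0 < bs ∧ 0 ≤ s ∧ s ≤ r ∧ r ≤ 1 ∧ r - s ≤ bs
  · obtain ⟨hbs, hs0, hsr, hr1, hrs⟩ := h1
    have := tr_fs_adapt_univ hM hreg μ hμ {TNm.Pi bs r j} ({TNm.T 0 true} ∪ {TNm.X s} ∪ nD1 n bs) 0 K (bs : ℝ) (by exact_mod_cast hbs)
      (fun m hm ω₀ => by
        rw [Real.rpow_zero, mul_one]
        exact h c₁ Cτ (M m) (hM.ok m) bs s r j hbs hs0 hsr hr1 hrs hm ω₀)
    filter_upwards [this] with x hx _ _ _ _ _ _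
    exact hx
  · exact Eventually.of_forall fun x _ a1 a2 a3 a4 a5 => absurd ⟨a1, a2, a3, a4, a5⟩ h1

/-- EXIT: field `pi2` -/
theorem tr_fs_pi2 (hM : TSeqOk M R₀ c₁ Cτ) (hreg : ISeqReg (tSys M)) (μ : Measure (TSp n)) [IsProbabilityMeasure μ] (hμ : (iSeqV (tSys M)).IsLim μ) :
    ∀ᵐ x ∂μ, ∀ (bs r : ℚ) (j : Fin (n + 1)), j ≠ 0 → 0 < bs → 0 ≤ r → r ≤ 1 →
      cI x {TNm.Pi bs r j} ({TNm.Z (rf0 n) bs r 0} ∪ {TNm.Z (rf0 n) bs r j} ∪ nD1 n bs) ≤ 0 := by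
  obtain ⟨K, -, h⟩ := tr_fs_fin_pi2 n R₀
  rw [ae_all_iff]; intro bs
  rw [ae_all_iff]; intro r
  rw [ae_all_iff]; intro j
  by_cases hbs : 0 < bs
  · have := tr_fs_adapt_univ hM hreg μ hμ {TNm.Pi bs r j} ({TNm.Z (rf0 n) bs r 0} ∪ {TNm.Z (rf0 n) bs r j} ∪ nD1 n bs) 0 K (bs : ℝ)
      (by exact_mod_cast hbs)
      (fun m hm ω₀ => by
        rw [Real.rpow_zero, mul_one]
        exact tr_geo_cnt_mono _ _ _ _ _ _ (fun ω hω => hω.2) le_rfl (h c₁ Cτ (M m) (hM.ok m) bs r j hbs hm ω₀))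
    filter_upwards [this] with x hx _ _ _ _
    exact hx
  · exact Eventually.of_forall fun x _ a1 => absurd a1 hbs

/-- EXIT: field `pi3` -/
theorem tr_fs_pi3 (hM : TSeqOk M R₀ c₁ Cτ) (hreg : ISeqReg (tSys M)) (μ : Measure (TSp n)) [IsProbabilityMeasure μ] (hμ : (iSeqV (tSys M)).IsLim μ) :
    ∀ᵐ x ∂μ, ∀ (bs r : ℚ), 0 < bs → 0 ≤ r → r ≤ 1 → cI x {TNm.X r} ({TNm.T 0 true} ∪ {TNm.Z (rf0 n) bs r 0} ∪ nD1 n bs) ≤ 0 := by
  obtain ⟨K, -, h⟩ := tr_fs_fin_pi3 n R₀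
  rw [ae_all_iff]; intro bs
  rw [ae_all_iff]; intro r
  by_cases h1 : 0 < bs ∧ 0 ≤ r ∧ r ≤ 1
  · obtain ⟨hbs, hr0, hr1⟩ := h1
    have := tr_fs_adapt_univ hM hreg μ hμ {TNm.X r} ({TNm.T 0 true} ∪ {TNm.Z (rf0 n) bs r 0} ∪ nD1 n bs) 0 K (bs : ℝ) (by exact_mod_cast hbs)
      (fun m hm ω₀ => by
        rw [Real.rpow_zero, mul_one]
        exact h c₁ Cτ (M m) (hM.ok m) bs r hbs hr0 hr1 hm ω₀)
    filter_upwards [this] with x hx _ _ _
    exact hx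
  · exact Eventually.of_forall fun x a1 a2 a3 => absurd ⟨a1, a2, a3⟩ h1

end Claimed.Agent.R257.TR
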