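import Claimed.Agent.R257.TR.GeoC

/-!
# R257 / TR / FactS / Fin : finite-scale facts behind the fields `slope`, `r_nonneg`, `onepos`, `pi1`, `pi2`, `pi3` of `TGood`      (architect helper53; captain TR helper217; chief of FACTS helper84)

PAPER-FREE.  Everything is derived from the shared API `TR/GeoA, GeoB, GeoC` (cite it as it is, proved or not) in the convention of `GeoC`:
`∃ K, 0 ≤ K ∧ ∀ c₁ Cτ M, M.Ok R₀ c₁ Cτ → … → M.Sm K δ → count ≤ M.er K * M.L ^ a`  (`K` depends on `n, R₀` only, the prover chooses it).     `Q = L^ε ≥ 1`.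
The transfer to the limit and the exits are in `FactS/Main.lean`.     Leaves L-TR-FS-*.   Prove IN PLACE, helper lemmas (prefix `tr_fs_`) above your theorem.
-/

set_option autoImplicit false

namespace Claimed.Agent.R257.TR

open Claimed.Agent.R255 Claimed.Agent.R257 MeasureTheory Filter Topology
open scoped BigOperators ENNReal InnerProductSpace
open Classical

variable {n : ℕ}

/-! ### the exponents `r i j` -/

theorem tr_fs_xv_nonneg (M : TModel n) (i j : Fin (n + 1)) (ω : M.Om) : 0 ≤ M.xv (TEx.r i j) ω := by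
  simp only [TModel.xv]
  split_ifs
  · exact zero_le_one
  · exact le_min zero_le_one (le_max_left _ _)

/-- the value is `< a ≤ 1`, so the ratio is not `0` and `- logb L |rat| < a` -/
theorem tr_fs_r_lt (M : TModel n) (hL : 1 < M.L) (i j : Fin (n + 1)) (ω : M.Om) {a : ℝ} (ha : a ≤ 1) (h : M.xv (TEx.r i j) ω < a) :
    M.L ^ (-a) < |M.rat i j ω (ω.2 (i, true))| := by
  simp only [TModel.xv] at h
  split_ifs at h with h0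
  · linarith
  · have h1 : max 0 (-Real.logb M.L |M.rat i j ω (ω.2 (i, true))|) < a := by
      rcases min_lt_iff.1 h with h | h
      · linarith
      · exact h
    have h2 : -Real.logb M.L |M.rat i j ω (ω.2 (i, true))| < a := lt_of_le_of_lt (le_max_right _ _) h1
    rw [← Real.lt_logb_iff_rpow_lt hL (abs_pos.2 h0)]
    linarith

theorem tr_fs_r_gt (M : TModel n) (hL : 1 < M.L) (i j : Fin (n + 1)) (ω : M.Om) {a : ℝ} (ha : 0 ≤ a) (h : a < M.xv (TEx.r i j) ω) :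
    |M.rat i j ω (ω.2 (i, true))| < M.L ^ (-a) := by
  simp only [TModel.xv] at h
  split_ifs at h with h0
  · rw [h0, abs_zero]
    exact Real.rpow_pos_of_pos (by linarith) _
  · have h1 : a < max 0 (-Real.logb M.L |M.rat i j ω (ω.2 (i, true))|) := (lt_min_iff.1 h).2
    have h2 : a < -Real.logb M.L |M.rat i j ω (ω.2 (i, true))| := by
      rcases lt_max_iff.1 h1 with h | h
      · linarith
      · exact h
    rw [← Real.logb_lt_iff_lt_rpow hL (abs_pos.2 h0)]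
    linarith

/-! ### two geometric lemmas in model form -/

variable {M : TModel n} {R₀ c₁ Cτ : ℝ}

/-- L-TR-FS-ART (~70 l.).  **The approximate ratios are bounded.**   `â = coord ξh (vdir ζh)`, `ξh = rbin`, `ζh` = representative of the bin of `T_0'`.
`tr_geo_repl_low` (`Q := 2 L^ε`, `R := R₀ + n`, `tr_geo_trv_rbin`, `tr_geo_trv_rbin_updb`, `tr_geo_rbin_norm`): `1 ≤ 2Q (R₀+n+1) |â_0|`;  `tr_geo_coord_bound_one`, `tr_geo_binR_norm`: `|â_j| ≤ 2Q (‖ζh‖ + 1) ≤ 2Q (R₀+n+1)`. -/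
theorem tr_fs_art (hM : M.Ok R₀ c₁ Cτ) (bs : ℚ) (hs : 4 * (n : ℝ) * M.L ^ M.ε ≤ M.L ^ (bs : ℝ)) (ω : M.Om) :
    coord (M.rbin (rf0 n) bs ω) (vdir (binR (sc M.L bs) (M.fr 0 (ω.2 (0, true))))) 0 ≠ 0 ∧
      ∀ j, |M.art bs j ω| ≤ 4 * (M.L ^ M.ε) ^ 2 * (R₀ + n + 1) ^ 2 := by

  have hQ1 : 1 ≤ M.L ^ M.ε := tr_geo_one_le_Q hM
  have hR0 : 0 ≤ R₀ := tr_geo_R_nonneg hM
  have hn0 : (0 : ℝ) ≤ n := Nat.cast_nonneg n
  have h1 := tr_geo_trv_rbin hM bs hs (rf0 n) ω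
  have h2 := tr_geo_trv_rbin_updb hM bs hs (rf0 n) ω 0 (ω.2 (0, true))
  have h3 := tr_geo_rbin_norm hM (rf0 n) bs ω 0
  have h4 := tr_geo_repl_low (2 * M.L ^ M.ε) (R₀ + n) (M.rbin (rf0 n) bs ω) 0 (binR (sc M.L bs) (M.fr 0 (ω.2 (0, true)))) h1 h2 h3
  have hz : ‖binR (sc M.L bs) (M.fr 0 (ω.2 (0, true)))‖ ≤ R₀ + n :=
    (tr_geo_binR_norm _ _).trans (by linarith [hM.fr_bd 0 (ω.2 (0, true))])
  have h5 : ∀ j, |coord (M.rbin (rf0 n) bs ω) (vdir (binR (sc M.L bs) (M.fr 0 (ω.2 (0, true))))) j| ≤ 2 * M.L ^ M.ε * (R₀ + n + 1) := by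
    intro j
    refine (tr_geo_coord_bound_one _ _ h1 _ j).trans ?_
    refine mul_le_mul_of_nonneg_left ?_ (by positivity)
    simp only [vdir, norm_smul, Real.norm_eq_abs, abs_one]
    rw [abs_of_pos (by norm_num : (0 : ℝ) < 2)]
    linarith
  set a0 := coord (M.rbin (rf0 n) bs ω) (vdir (binR (sc M.L bs) (M.fr 0 (ω.2 (0, true))))) 0 with ha0
  have hB : 0 < 2 * M.L ^ M.ε * (R₀ + n + 1) := by positivity
  have hne : a0 ≠ 0 := by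
    intro h0
    rw [h0, abs_zero, mul_zero] at h4
    linarith
  refine ⟨hne, fun j => ?_⟩
  have hpos : 0 < |a0| := abs_pos.2 hne
  unfold TModel.art
  rw [← ha0, abs_div, div_le_iff₀ hpos]
  calc _ ≤ 2 * M.L ^ M.ε * (R₀ + n + 1) * 1 := by rw [mul_one]; exact h5 j
    _ ≤ 2 * M.L ^ M.ε * (R₀ + n + 1) * (2 * M.L ^ M.ε * (R₀ + n + 1) * |a0|) := mul_le_mul_of_nonneg_left h4 hB.le
    _ = _ := by ring

/-- L-TR-FS-TRIV (~50 l.).  trivial count of cells: all positions lie in the unit ball (`hM.pos_bd`, sup norm of `E n × ℝ`); `tr_geo_cnt_cell` with `lam₁ = lam₂ = 2 · 2^k`, `2^k ≤ L^r ≤ L` (`tr_geo_sc_le`), `4L + 2 ≤ 5L`. -/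
theorem tr_fs_cnt_triv (hM : M.Ok R₀ c₁ Cτ) (r : ℚ) (hr0 : 0 ≤ r) (hr : r ≤ 1) (E : M.Om → Prop) :
    M.sys.Cnt E {TNm.X r} ((5 : ℝ) ^ (n + 1) * M.L ^ ((n : ℝ) + 1)) := by

  have hL := hM.L_ge
  have hL0 : 0 < M.L := by linarith
  have hk : (2 : ℝ) ^ (sc M.L r) ≤ M.L := by
    refine (tr_geo_sc_le M.L hL r hr0).trans ?_
    calc M.L ^ (r : ℝ) ≤ M.L ^ (1 : ℝ) := Real.rpow_le_rpow_of_exponent_le (by linarith) (by exact_mod_cast hr)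
      _ = M.L := Real.rpow_one _
  have hkp : (0 : ℝ) < (2 : ℝ) ^ (sc M.L r) := by positivity
  have h := tr_geo_cnt_cell M E r (2 * (2 : ℝ) ^ (sc M.L r)) (2 * (2 : ℝ) ^ (sc M.L r)) (by positivity) (by positivity) (by
    intro ω ω' _ _
    have e : 2 * (2 : ℝ) ^ (sc M.L r) * ((2 : ℝ) ^ (sc M.L r))⁻¹ = 2 := by field_simp
    rw [e]
    have h1 := hM.pos_bd ω.1
    have h2 := hM.pos_bd ω'.1
    have h1a : ‖(M.pos ω.1).1‖ ≤ 1 := (norm_fst_le _).trans h1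
    have h1b : ‖(M.pos ω.1).2‖ ≤ 1 := (norm_snd_le _).trans h1
    have h2a : ‖(M.pos ω'.1).1‖ ≤ 1 := (norm_fst_le _).trans h2
    have h2b : ‖(M.pos ω'.1).2‖ ≤ 1 := (norm_snd_le _).trans h2
    constructor
    · exact (norm_sub_le _ _).trans (by linarith)
    · rw [← Real.norm_eq_abs]
      exact (norm_sub_le _ _).trans (by linarith))
  refine tr_geo_cnt_mono M.sys E E _ _ _ (fun _ h => h) ?_ h
  have h5 : 2 * (2 * (2 : ℝ) ^ (sc M.L r)) + 2 ≤ 5 * M.L := by linarith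
  have h0 : 0 ≤ 2 * (2 * (2 : ℝ) ^ (sc M.L r)) + 2 := by positivity
  calc (2 * (2 * (2 : ℝ) ^ (sc M.L r)) + 2) ^ n * (2 * (2 * (2 : ℝ) ^ (sc M.L r)) + 2) ≤ (5 * M.L) ^ n * (5 * M.L) :=
        mul_le_mul (pow_le_pow_left₀ h0 h5 n) h5 h0 (by positivity)
    _ = (5 : ℝ) ^ (n + 1) * M.L ^ ((n : ℝ) + 1) := by
        rw [← pow_succ, mul_pow]
        congr 1
        rw [← Real.rpow_natCast]
        push_cast
        rfl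

/-- L-TR-FS-LINE (~200 l.).  **One coordinate parametrises a tube** (fields `slope`, `pi3`).   Let `ω, ω' ∈ E`, `k = sc L r`, `Δt` = difference of the times, `α' = coord (rbin) (vdir (fr q.1 (ω.2 q)))` (the same for `ω`, `ω'`).
`tr_geo_inc_gc`: `gc_j ω - gc_j ω' = Δt α'_j + c_j`, `|c_j| ≤ 2 L^{-1+2ε} ≤ 2 Q² 2^{-k}` (`L^{-1} ≤ L^{-r} ≤ 2^{-k}`, `tr_geo_sc_inv_ge`); `tr_geo_agr_Z`, `tr_geo_floor_close`: `|gc_j ω - gc_j ω'| ≤ 2^{-k}`.   So `|Δt| ≤ lam₂ 2^{-k}`, `lam₂ = (1 + 2Q²)/σ`.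
`tr_geo_inc_diff`: `‖Δx‖ ≤ 2 R₀ |Δt| + 2 L^{-1+ε} ≤ lam₁ 2^{-k}`, `lam₁ = 2 R₀ lam₂ + 2Q`.   `tr_geo_cnt_cell`; `(2 lam₁ + 2)^n (2 lam₂ + 2) ≤ (12 R₀ + 8)^{n+1} Q^{2(n+1)} σ^{-(n+1)}` (`σ ≤ 1 ≤ Q`); `tr_geo_er_le`. -/
theorem tr_fs_line (n : ℕ) (R₀ : ℝ) : ∃ K : ℝ, 0 ≤ K ∧ ∀ (c₁ Cτ : ℝ) (M : TModel n), M.Ok R₀ c₁ Cτ →
    ∀ (q : Fin (n + 1) × Bool) (ρ : Rf n) (bs r : ℚ) (j : Fin (n + 1)) (σ : ℝ), 0 ≤ r → r ≤ 1 → 4 * (n : ℝ) * M.L ^ M.ε ≤ M.L ^ (bs : ℝ) → 0 < σ → σ ≤ 1 →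
    ∀ E : M.Om → Prop, (∀ ω, E ω → 0 < M.law.p ω) →
      (∀ ω ω', E ω → E ω' → ω.2 q = ω'.2 q ∧ M.rbin ρ bs ω = M.rbin ρ bs ω' ∧ M.sys.Agr {TNm.Z ρ bs r j} ω ω') →
      (∀ ω, E ω → σ ≤ |coord (M.rbin ρ bs ω) (vdir (M.fr q.1 (ω.2 q))) j|) →
      M.sys.Cnt E {TNm.X r} (M.er K * σ⁻¹ ^ (n + 1)) := by
  refine ⟨(12 * |R₀| + 8) ^ (n + 1) + 2 * (n + 1), by positivity, ?_⟩
  intro c₁ Cτ M hM q ρ bs r j σ hr0 hr1 hs hσ hσ1 E hEp hEa hEσ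
  obtain ⟨Q, hQ⟩ : ∃ Q : ℝ, Q = M.L ^ M.ε := ⟨_, rfl⟩
  have hQ1 : 1 ≤ Q := hQ ▸ tr_geo_one_le_Q hM
  have hR : 0 ≤ R₀ := tr_geo_R_nonneg hM
  have hL : 0 < M.L := tr_geo_L_pos hM
  obtain ⟨w, hw⟩ : ∃ w : ℝ, w = ((2 : ℝ) ^ (sc M.L r))⁻¹ := ⟨_, rfl⟩
  have hw0 : 0 < w := by rw [hw]; positivity
  have hLw : M.L ^ (-1 : ℝ) ≤ w := by
    rw [hw]
    refine le_trans ?_ (tr_geo_sc_inv_ge M.L hM.L_ge r hr0)
    refine Real.rpow_le_rpow_of_exponent_le (by linarith [hM.L_ge]) ?_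
    have : (r : ℝ) ≤ 1 := by exact_mod_cast hr1
    linarith
  have h1 : M.L ^ (-1 + 2 * M.ε) ≤ Q ^ 2 * w := by
    rw [Real.rpow_add hL, mul_comm]
    have : M.L ^ (2 * M.ε) = Q ^ 2 := by
      rw [hQ, ← Real.rpow_natCast, ← Real.rpow_mul hL.le]
      congr 1
      push_cast
      ring
    rw [this]
    exact mul_le_mul_of_nonneg_left hLw (by positivity)
  have h2 : M.L ^ (-1 + M.ε) ≤ Q * w := by
    rw [Real.rpow_add hL, mul_comm, ← hQ]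
    exact mul_le_mul_of_nonneg_left hLw (by positivity)
  obtain ⟨lam₂, hlam₂⟩ : ∃ lam₂ : ℝ, lam₂ = (1 + 2 * Q ^ 2) * σ⁻¹ := ⟨_, rfl⟩
  obtain ⟨lam₁, hlam₁⟩ : ∃ lam₁ : ℝ, lam₁ = 2 * R₀ * lam₂ + 2 * Q := ⟨_, rfl⟩
  have hl2 : 0 ≤ lam₂ := by rw [hlam₂]; positivity
  have hl1 : 0 ≤ lam₁ := by rw [hlam₁]; positivity
  have key : ∀ ω ω', E ω → E ω' → ‖(M.pos ω.1).1 - (M.pos ω'.1).1‖ ≤ lam₁ * ((2 : ℝ) ^ (sc M.L r))⁻¹ ∧
      |(M.pos ω.1).2 - (M.pos ω'.1).2| ≤ lam₂ * ((2 : ℝ) ^ (sc M.L r))⁻¹ := by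
    intro ω ω' hω hω'
    rw [← hw]
    obtain ⟨hT, hb, hZ⟩ := hEa ω ω' hω hω'
    obtain ⟨c, hc, hgc⟩ := tr_geo_inc_gc hM bs hs ρ ω ω' (hEp ω hω) (hEp ω' hω') q hT hb
    obtain ⟨e, he, hpos⟩ := tr_geo_inc_diff hM ω ω' (hEp ω hω) (hEp ω' hω') q hT
    obtain ⟨Δ, hΔ⟩ : ∃ Δ : ℝ, Δ = (M.pos ω.1).2 - (M.pos ω'.1).2 := ⟨_, rfl⟩
    rw [← hΔ] at hgc hpos ⊢
    have hZ' := tr_geo_floor_close _ _ _ ((tr_geo_agr_Z M ρ bs r j ω ω').1 hZ)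
    rw [← hw] at hZ'
    have hj := congrFun hgc j
    simp only [Pi.sub_apply, Pi.add_apply, Pi.smul_apply, smul_eq_mul] at hj
    have hcj : |c j| ≤ 2 * M.L ^ (-1 + 2 * M.ε) :=
      le_trans (Finset.single_le_sum (f := fun i => |c i|) (fun i _ => abs_nonneg _) (Finset.mem_univ j)) hc
    have hΔ1 : |Δ| * σ ≤ (1 + 2 * Q ^ 2) * w := by
      calc |Δ| * σ ≤ |Δ| * |coord (M.rbin ρ bs ω) (vdir (M.fr q.1 (ω.2 q))) j| :=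
            mul_le_mul_of_nonneg_left (hEσ ω hω) (abs_nonneg _)
        _ = |Δ * coord (M.rbin ρ bs ω) (vdir (M.fr q.1 (ω.2 q))) j| := (abs_mul _ _).symm
        _ = |(M.gc ρ bs ω j - M.gc ρ bs ω' j) - c j| := by rw [hj]; ring_nf
        _ ≤ |M.gc ρ bs ω j - M.gc ρ bs ω' j| + |c j| := abs_sub _ _
        _ ≤ w + 2 * (Q ^ 2 * w) := by linarith
        _ = (1 + 2 * Q ^ 2) * w := by ring
    have hΔ2 : |Δ| ≤ lam₂ * w := by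
      rw [hlam₂]
      calc |Δ| = |Δ| * σ * σ⁻¹ := by field_simp
        _ ≤ (1 + 2 * Q ^ 2) * w * σ⁻¹ := mul_le_mul_of_nonneg_right hΔ1 (by positivity)
        _ = (1 + 2 * Q ^ 2) * σ⁻¹ * w := by ring
    refine ⟨?_, hΔ2⟩
    have hp1 := congrArg Prod.fst hpos
    simp only [Prod.fst_sub, Prod.fst_add, Prod.smul_fst, vdir] at hp1
    rw [hp1]
    have hn1 : ‖Δ • (2 : ℝ) • M.fr q.1 (ω.2 q)‖ ≤ |Δ| * (2 * R₀) := by
      rw [norm_smul, norm_smul, Real.norm_eq_abs, Real.norm_eq_abs, abs_two]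
      exact mul_le_mul_of_nonneg_left (mul_le_mul_of_nonneg_left (hM.fr_bd _ _) (by norm_num)) (abs_nonneg _)
    calc ‖Δ • (2 : ℝ) • M.fr q.1 (ω.2 q) + e‖ ≤ ‖Δ • (2 : ℝ) • M.fr q.1 (ω.2 q)‖ + ‖e‖ := norm_add_le _ _
      _ ≤ |Δ| * (2 * R₀) + 2 * (Q * w) := by linarith
      _ ≤ lam₂ * w * (2 * R₀) + 2 * (Q * w) := by
          have := mul_le_mul_of_nonneg_right hΔ2 (by positivity : 0 ≤ 2 * R₀)
          linarith
      _ = lam₁ * w := by rw [hlam₁]; ring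
  have hcnt := tr_geo_cnt_cell M E r lam₁ lam₂ hl1 hl2 key
  refine tr_geo_cnt_mono _ _ _ _ _ _ (fun _ h => h) ?_ hcnt
  obtain ⟨s, hs'⟩ : ∃ s : ℝ, s = σ⁻¹ := ⟨_, rfl⟩
  have hs1 : 1 ≤ s := by rw [hs']; exact (one_le_inv₀ hσ).2 hσ1
  rw [← hs'] at hlam₂ ⊢
  have hQ2 : 1 ≤ Q ^ 2 := one_le_pow₀ hQ1
  have hQQ : Q ≤ Q ^ 2 := by nlinarith
  have hQs : 1 ≤ Q ^ 2 * s := by nlinarith
  have hQs' : Q ^ 2 ≤ Q ^ 2 * s := by nlinarith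
  have hs2 : s ≤ Q ^ 2 * s := by nlinarith
  obtain ⟨B, hB⟩ : ∃ B : ℝ, B = (12 * R₀ + 8) * (Q ^ 2 * s) := ⟨_, rfl⟩
  have hb2 : 2 * lam₂ + 2 ≤ B := by
    rw [hlam₂, hB]
    have : 0 ≤ R₀ * (Q ^ 2 * s) := by positivity
    nlinarith
  have hb1 : 2 * lam₁ + 2 ≤ B := by
    rw [hlam₁, hlam₂, hB]
    have e1 : R₀ * s ≤ R₀ * (Q ^ 2 * s) := mul_le_mul_of_nonneg_left hs2 hR
    nlinarith
  have hE : (12 * R₀ + 8) ^ (n + 1) * M.L ^ ((2 * ((n : ℝ) + 1)) * M.ε) ≤ M.er ((12 * |R₀| + 8) ^ (n + 1) + 2 * (n + 1)) := by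
    refine tr_geo_er_le hM _ _ _ (by positivity) ?_ ?_
    · rw [abs_of_nonneg hR]
      have : (0 : ℝ) ≤ 2 * ((n : ℝ) + 1) := by positivity
      linarith
    · have : (0 : ℝ) ≤ (12 * |R₀| + 8) ^ (n + 1) := by positivity
      linarith
  have hQp : M.L ^ ((2 * ((n : ℝ) + 1)) * M.ε) = (Q ^ 2) ^ (n + 1) := by
    rw [hQ, ← pow_mul, ← Real.rpow_natCast, ← Real.rpow_mul hL.le]
    congr 1
    push_cast
    ring
  calc (2 * lam₁ + 2) ^ n * (2 * lam₂ + 2) ≤ B ^ n * B :=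
        mul_le_mul (pow_le_pow_left₀ (by positivity) hb1 n) hb2 (by positivity) (by rw [hB]; positivity)
    _ = (12 * R₀ + 8) ^ (n + 1) * (Q ^ 2) ^ (n + 1) * s ^ (n + 1) := by
        rw [hB, ← pow_succ, mul_pow, mul_pow]; ring
    _ ≤ M.er ((12 * |R₀| + 8) ^ (n + 1) + 2 * (n + 1)) * s ^ (n + 1) := by
        rw [← hQp]
        exact mul_le_mul_of_nonneg_right hE (by positivity)

/-- L-TR-FS-LOW (~150 l.).  **A ratio which is not small in the exact basis gives a coefficient which is not small in the bin basis.**   `α = coord (rfr) (vdir ζ)`, `α' = coord (rbin) (vdir ζ)`, `ζ = fr i T`.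
`tr_geo_repl_low` (`tr_geo_trv_rfr`, `tr_geo_trv_rfr_upd`, `hM.fr_bd`): `1 ≤ Q (R₀+1) |α_i|`, so `|α_j| = |rat| |α_i| ≥ L^{-u} / (Q (R₀+1))`.
`tr_geo_coord_perturb` (both families `Trv (2Q)`: `tr_geo_trv_mono`, `tr_geo_trv_rbin`; `d = 2 n L^{-bs}`: `tr_geo_rbin_dist`), `tr_geo_coord_bound`: `|α'_j - α_j| ≤ 2Q · 2n L^{-bs} · Q (R₀+1)`.
The hypothesis `hs` makes this `≤ L^{-u} / (2 Q (R₀+1))`. -/
theorem tr_fs_low (hM : M.Ok R₀ c₁ Cτ) (bs : ℚ) (u : ℝ) (hs : 8 * ((n : ℝ) + 1) * (M.L ^ M.ε) ^ 3 * (R₀ + 1) ^ 2 * M.L ^ u ≤ M.L ^ (bs : ℝ)) (hu : 0 ≤ u)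
    (i j : Fin (n + 1)) (ω : M.Om) (T : M.τ) (h : M.L ^ (-u) ≤ |M.rat i j ω T|) :
    M.L ^ (-u) / (2 * M.L ^ M.ε * (R₀ + 1)) ≤ |coord (M.rbin (rf0 n) bs ω) (vdir (M.fr i T)) j| := by

  have hQ1 : 1 ≤ M.L ^ M.ε := tr_geo_one_le_Q hM
  have hR0 : 0 ≤ R₀ := tr_geo_R_nonneg hM
  have hn0 : (0 : ℝ) ≤ n := Nat.cast_nonneg n
  have hL0 : 0 < M.L := tr_geo_L_pos hM
  have hL1 : 1 ≤ M.L := by linarith [hM.L_ge]
  have hLu : 1 ≤ M.L ^ u := Real.one_le_rpow hL1 hu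
  set Q := M.L ^ M.ε with hQ
  have hQ3 : Q ≤ Q ^ 3 := by nlinarith [mul_nonneg (sub_nonneg.2 hQ1) (sub_nonneg.2 hQ1), mul_nonneg (mul_nonneg (sub_nonneg.2 hQ1) (sub_nonneg.2 hQ1)) (by linarith : (0:ℝ) ≤ Q)]
  have hRR : 1 ≤ (R₀ + 1) ^ 2 := by nlinarith
  have hs' : 4 * (n : ℝ) * Q ≤ M.L ^ (bs : ℝ) := by
    refine le_trans ?_ hs
    have e1 : 4 * (n : ℝ) * Q ≤ 8 * ((n : ℝ) + 1) * Q ^ 3 := by
      have : 4 * (n : ℝ) * Q ≤ 8 * ((n : ℝ) + 1) * Q := by nlinarith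
      exact this.trans (mul_le_mul_of_nonneg_left hQ3 (by positivity))
    have e2 : 8 * ((n : ℝ) + 1) * Q ^ 3 ≤ 8 * ((n : ℝ) + 1) * Q ^ 3 * (R₀ + 1) ^ 2 := le_mul_of_one_le_right (by positivity) hRR
    have e3 : 8 * ((n : ℝ) + 1) * Q ^ 3 * (R₀ + 1) ^ 2 ≤ 8 * ((n : ℝ) + 1) * Q ^ 3 * (R₀ + 1) ^ 2 * M.L ^ u := le_mul_of_one_le_right (by positivity) hLu
    linarith
  have t1 := tr_geo_trv_rfr hM (rf0 n) ω
  have t2 := tr_geo_trv_rfr_upd hM (rf0 n) ω i T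
  have t3 : ‖M.rfr (rf0 n) ω i‖ ≤ R₀ := hM.fr_bd _ _
  have t4 := tr_geo_repl_low _ R₀ _ i (M.fr i T) t1 t2 t3
  have t5 := tr_geo_trv_rbin hM bs hs' (rf0 n) ω
  have t6 := tr_geo_trv_mono _ (2 * M.L ^ M.ε) _ t1 (by linarith)
  have t7 := tr_geo_coord_perturb (2 * M.L ^ M.ε) (2 * n * M.L ^ (-(bs : ℝ))) (M.rfr (rf0 n) ω) (M.rbin (rf0 n) bs ω) t6 t5
    (fun l => tr_geo_rbin_dist hM (rf0 n) bs ω l) (vdir (M.fr i T))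
  have t8 : ∑ l, |coord (M.rfr (rf0 n) ω) (vdir (M.fr i T)) l| ≤ Q * (R₀ + 1) := by
    refine (tr_geo_coord_bound _ _ t1 _).trans ?_
    refine mul_le_mul_of_nonneg_left ?_ (by positivity)
    simp only [vdir, norm_smul, Real.norm_eq_abs, abs_one]
    rw [abs_of_pos (by norm_num : (0 : ℝ) < 2)]
    linarith [hM.fr_bd i T]
  rw [← hQ] at t4 t7
  set α := coord (M.rfr (rf0 n) ω) (vdir (M.fr i T)) with hα
  set α' := coord (M.rbin (rf0 n) bs ω) (vdir (M.fr i T)) with hα'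
  have hB : 0 < Q * (R₀ + 1) := by positivity
  have hLmu : 0 < M.L ^ (-u) := Real.rpow_pos_of_pos hL0 _
  have hLbs : 0 < M.L ^ (bs : ℝ) := Real.rpow_pos_of_pos hL0 _
  have hi0 : α i ≠ 0 := by
    intro h0
    rw [h0, abs_zero, mul_zero] at t4
    linarith
  -- lower bound of `α j`
  have l1 : M.L ^ (-u) / (Q * (R₀ + 1)) ≤ |α j| := by
    have e : |α j| = |M.rat i j ω T| * |α i| := by
      unfold TModel.rat
      rw [← hα, abs_div, div_mul_cancel₀ _ (abs_ne_zero.2 hi0)]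
    rw [e, div_le_iff₀ hB]
    calc M.L ^ (-u) = M.L ^ (-u) * 1 := (mul_one _).symm
      _ ≤ |M.rat i j ω T| * (Q * (R₀ + 1) * |α i|) := mul_le_mul h t4 zero_le_one (abs_nonneg _)
      _ = _ := by ring
  -- the perturbation
  have l2 : |α' j - α j| ≤ M.L ^ (-u) / (2 * Q * (R₀ + 1)) := by
    have e1 : |α' j - α j| ≤ ∑ l, |α' l - α l| := Finset.single_le_sum (f := fun l => |α' l - α l|) (fun l _ => abs_nonneg _) (Finset.mem_univ j)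
    have e2 : 2 * Q * (2 * n * M.L ^ (-(bs : ℝ))) * ∑ l, |α l| ≤ 2 * Q * (2 * n * M.L ^ (-(bs : ℝ))) * (Q * (R₀ + 1)) :=
      mul_le_mul_of_nonneg_left t8 (by positivity)
    refine e1.trans (t7.trans (e2.trans ?_))
    rw [le_div_iff₀ (by positivity), Real.rpow_neg hL0.le, Real.rpow_neg hL0.le]
    have hLup : 0 < M.L ^ u := by linarith
    rw [← sub_nonneg]
    have key : (M.L ^ u)⁻¹ - 2 * Q * (2 * n * (M.L ^ (bs : ℝ))⁻¹) * (Q * (R₀ + 1)) * (2 * Q * (R₀ + 1))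
        = (M.L ^ (bs : ℝ) - 8 * (n : ℝ) * Q ^ 3 * (R₀ + 1) ^ 2 * M.L ^ u) / (M.L ^ u * M.L ^ (bs : ℝ)) := by
      field_simp
      ring
    rw [key]
    refine div_nonneg ?_ (by positivity)
    have : 8 * (n : ℝ) * Q ^ 3 * (R₀ + 1) ^ 2 * M.L ^ u ≤ 8 * ((n : ℝ) + 1) * Q ^ 3 * (R₀ + 1) ^ 2 * M.L ^ u := by
      have hp : 0 ≤ Q ^ 3 * (R₀ + 1) ^ 2 * M.L ^ u := by positivity
      nlinarith
    linarith
  have l3 : |α j| ≤ |α' j| + |α' j - α j| := by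
    have := abs_sub_abs_le_abs_sub (α j) (α' j)
    rw [abs_sub_comm] at this
    linarith
  have l4 : M.L ^ (-u) / (Q * (R₀ + 1)) = 2 * (M.L ^ (-u) / (2 * Q * (R₀ + 1))) := by
    field_simp
  linarith

/-! ### the finite-scale facts -/

/-- L-TR-FS-SLOPE (~200 l.).   Case `2 ≤ a`: `tr_fs_cnt_triv` (`n + 1 ≤ (n+1) a/2`).   Case `a < 2`: `tr_fs_r_lt` (`a/2 ≤ 1`), `tr_fs_low` with `u = a/2` (`hs` from `Sm K (a/2)` and `a/2 + a/2 ≤ bs`), then `tr_fs_line` with `q = (i, true)`, `ρ = rf0 n`,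
`σ = L^{-a/2} / (2Q (R₀+1))`; the agreements from `tr_geo_agr_union`, `tr_geo_agr_T`, `tr_geo_agr_nD0` (through `ω₀`).   NOTE: the hidden exact references of the points of `E` differ, but `rbin` and `T_i'` are the same.
`σ⁻¹^{n+1} = (2Q (R₀+1))^{n+1} L^{(n+1) a/2}`; `tr_geo_er_le`, `tr_geo_er_mul`. -/
theorem tr_fs_fin_slope (n : ℕ) (R₀ : ℝ) : ∃ K : ℝ, 0 ≤ K ∧ ∀ (c₁ Cτ : ℝ) (M : TModel n), M.Ok R₀ c₁ Cτ →
    ∀ (i j : Fin (n + 1)) (bs r a : ℚ), 0 < a → a < bs → 0 ≤ r → r ≤ 1 → M.Sm K ((a : ℝ) / 2) → ∀ ω₀ : M.Om,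
      M.sys.Cnt (fun ω => M.xv (TEx.r i j) ω < (a : ℝ) / 2 ∧ 0 < M.law.p ω ∧
        M.sys.Agr ({TNm.T i true} ∪ {TNm.Z (rf0 n) bs r j} ∪ nD0 (rf0 n) bs) ω ω₀) {TNm.X r} (M.er K * M.L ^ (((n : ℝ) + 1) * a / 2)) := by
  obtain ⟨K₁, hK₁, hline⟩ := tr_fs_line n R₀
  obtain ⟨K₂, hK₂⟩ : ∃ K₂ : ℝ, K₂ = (2 * (|R₀| + 1)) ^ (n + 1) + ((n : ℝ) + 1) := ⟨_, rfl⟩
  have hK₂0 : 0 ≤ K₂ := by rw [hK₂]; positivity
  obtain ⟨K, hKdef⟩ : ∃ K : ℝ, K = K₁ * K₂ + K₁ + K₂ + 5 ^ (n + 1) + 8 * ((n : ℝ) + 1) * (R₀ + 1) ^ 2 + 3 + 4 * n := ⟨_, rfl⟩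
  have hK0 : 0 ≤ K := by rw [hKdef]; positivity
  refine ⟨K, hK0, ?_⟩
  intro c₁ Cτ M hM i j bs r a ha0 hab hr0 hr1 hs ω₀
  have hL2 := hM.L_ge
  have hL : 1 < M.L := by linarith
  have hL0 : 0 < M.L := by linarith
  have hR0 : 0 ≤ R₀ := tr_geo_R_nonneg hM
  have hQ1 := tr_geo_one_le_Q hM
  have haR : (0 : ℝ) < a := by exact_mod_cast ha0
  have habR : (a : ℝ) < bs := by exact_mod_cast hab
  have hmono : ∀ u v : ℝ, u ≤ v → M.L ^ u ≤ M.L ^ v := fun u v h => Real.rpow_le_rpow_of_exponent_le hL.le h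
  have hpos : ∀ u : ℝ, 0 < M.L ^ u := fun u => Real.rpow_pos_of_pos hL0 u
  have hnn : (0 : ℝ) ≤ n := Nat.cast_nonneg n
  have hprod : 0 ≤ K₁ * K₂ := mul_nonneg hK₁ hK₂0
  have h5 : (0 : ℝ) ≤ 5 ^ (n + 1) := by positivity
  have h8 : 0 ≤ 8 * ((n : ℝ) + 1) * (R₀ + 1) ^ 2 := by positivity
  by_cases ha2 : (2 : ℚ) ≤ a
  · have ha2R : (2 : ℝ) ≤ a := by exact_mod_cast ha2
    refine tr_geo_cnt_mono M.sys _ _ _ _ _ (fun ω h => h) ?_ (tr_fs_cnt_triv hM r hr0 hr1 _)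
    exact mul_le_mul (tr_geo_er_const hM _ K hK0 (by rw [hKdef]; linarith)) (hmono _ _ (by nlinarith)) (hpos _).le
      (tr_geo_er_nonneg hM K hK0)
  · rw [not_le] at ha2
    have ha2R : (a : ℝ) < 2 := by exact_mod_cast ha2
    have hs4 : 4 * (n : ℝ) * M.L ^ M.ε ≤ M.L ^ (bs : ℝ) := by
      have g1 := tr_geo_sm_use hM (4 * (n : ℝ)) 1 K _ (by positivity) (by rw [hKdef]; linarith) (by rw [hKdef]; linarith) hs
      rw [one_mul] at g1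
      exact g1.trans (hmono _ _ (by linarith))
    have hs8 : 8 * ((n : ℝ) + 1) * (M.L ^ M.ε) ^ 3 * (R₀ + 1) ^ 2 * M.L ^ ((a : ℝ) / 2) ≤ M.L ^ (bs : ℝ) := by
      have g1 := tr_geo_sm_use hM (8 * ((n : ℝ) + 1) * (R₀ + 1) ^ 2) 3 K _ h8 (by rw [hKdef]; linarith) (by rw [hKdef]; linarith) hs
      have e1 : (M.L ^ M.ε) ^ 3 = M.L ^ (3 * M.ε) := by
        rw [← Real.rpow_natCast, ← Real.rpow_mul hL0.le]
        congr 1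
        push_cast
        ring
      calc 8 * ((n : ℝ) + 1) * (M.L ^ M.ε) ^ 3 * (R₀ + 1) ^ 2 * M.L ^ ((a : ℝ) / 2)
          = (8 * ((n : ℝ) + 1) * (R₀ + 1) ^ 2 * M.L ^ (3 * M.ε)) * M.L ^ ((a : ℝ) / 2) := by rw [e1]; ring
        _ ≤ M.L ^ ((a : ℝ) / 2) * M.L ^ ((a : ℝ) / 2) := mul_le_mul_of_nonneg_right g1 (hpos _).le
        _ = M.L ^ (a : ℝ) := by rw [← Real.rpow_add hL0]; congr 1; ring
        _ ≤ _ := hmono _ _ habR.le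
    obtain ⟨σ, hσ⟩ : ∃ σ : ℝ, σ = M.L ^ (-((a : ℝ) / 2)) / (2 * M.L ^ M.ε * (R₀ + 1)) := ⟨_, rfl⟩
    have hden : 1 ≤ 2 * M.L ^ M.ε * (R₀ + 1) := by nlinarith
    have hσ0 : 0 < σ := by
      rw [hσ]
      exact div_pos (hpos _) (by linarith)
    have hσ1 : σ ≤ 1 := by
      rw [hσ, div_le_one (by linarith)]
      have : M.L ^ (-((a : ℝ) / 2)) ≤ 1 := Real.rpow_le_one_of_one_le_of_nonpos hL.le (by linarith)
      linarith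
    have hc := hline c₁ Cτ M hM (i, true) (rf0 n) bs r j σ hr0 hr1 hs4 hσ0 hσ1
      (fun ω => M.xv (TEx.r i j) ω < (a : ℝ) / 2 ∧ 0 < M.law.p ω ∧
        M.sys.Agr ({TNm.T i true} ∪ {TNm.Z (rf0 n) bs r j} ∪ nD0 (rf0 n) bs) ω ω₀)
      (fun ω h => h.2.1) ?_ ?_
    · refine tr_geo_cnt_mono M.sys _ _ _ _ _ (fun ω h => h) ?_ hc
      have e1 : σ⁻¹ = (2 * (R₀ + 1)) * M.L ^ M.ε * M.L ^ ((a : ℝ) / 2) := by
        rw [hσ, inv_div, Real.rpow_neg hL0.le, div_inv_eq_mul]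
        ring
      have e2 : σ⁻¹ ^ (n + 1) = ((2 * (R₀ + 1)) ^ (n + 1) * M.L ^ (((n : ℝ) + 1) * M.ε)) * M.L ^ (((n : ℝ) + 1) * a / 2) := by
        rw [e1, mul_pow, mul_pow, ← Real.rpow_natCast (M.L ^ M.ε), ← Real.rpow_mul hL0.le,
          ← Real.rpow_natCast (M.L ^ ((a : ℝ) / 2)), ← Real.rpow_mul hL0.le]
        congr 2
        · congr 1
          push_cast
          ring
        · push_cast
          ring
      have g2 : (2 * (R₀ + 1)) ^ (n + 1) * M.L ^ (((n : ℝ) + 1) * M.ε) ≤ M.er K₂ := by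
        apply tr_geo_er_le hM _ _ _ (by positivity)
        · rw [hK₂, abs_of_nonneg hR0]
          linarith
        · rw [hK₂]
          have : 0 ≤ (2 * (|R₀| + 1)) ^ (n + 1) := by positivity
          linarith
      rw [e2, ← mul_assoc]
      apply mul_le_mul_of_nonneg_right _ (hpos _).le
      calc M.er K₁ * ((2 * (R₀ + 1)) ^ (n + 1) * M.L ^ (((n : ℝ) + 1) * M.ε)) ≤ M.er K₁ * M.er K₂ :=
            mul_le_mul_of_nonneg_left g2 (tr_geo_er_nonneg hM K₁ hK₁)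
        _ ≤ M.er (K₁ * K₂ + K₁ + K₂) := tr_geo_er_mul hM K₁ K₂ hK₁ hK₂0
        _ ≤ M.er K := tr_geo_er_mono hM _ _ (by linarith) (by rw [hKdef]; linarith)
    · rintro ω ω' ⟨-, -, g1⟩ ⟨-, -, g2⟩
      have g3 := tr_geo_agr_trans M.sys _ ω ω₀ ω' g1 (tr_geo_agr_symm M.sys _ ω' ω₀ g2)
      obtain ⟨g4, g5⟩ := (tr_geo_agr_union M.sys _ _ ω ω').1 g3
      obtain ⟨g6, g7⟩ := (tr_geo_agr_union M.sys _ _ ω ω').1 g4
      exact ⟨(tr_geo_agr_T M i true ω ω').1 g6, tr_geo_agr_nD0 M (rf0 n) bs ω ω' g5, g7⟩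
    · rintro ω ⟨g1, -, -⟩
      rw [hσ]
      exact tr_fs_low hM bs ((a : ℝ) / 2) hs8 (by linarith) i j ω (ω.2 (i, true))
        (tr_fs_r_lt M hL i j ω (by linarith) g1).le

/-- L-TR-FS-PI3 (~120 l.).   `tr_fs_line` with `q = (0, true)`, `ρ = rf0 n`, `j = 0`, `σ = 1 / (2Q (R₀+n+1))`: `tr_geo_repl_low` (`Q := 2 L^ε`, `R := R₀ + n`; `tr_geo_trv_rbin`, `tr_geo_trv_rbin_upd`, `tr_geo_rbin_norm`).   `nD0 ⊆ nD1`. -/
theorem tr_fs_fin_pi3 (n : ℕ) (R₀ : ℝ) : ∃ K : ℝ, 0 ≤ K ∧ ∀ (c₁ Cτ : ℝ) (M : TModel n), M.Ok R₀ c₁ Cτ →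
    ∀ (bs r : ℚ), 0 < bs → 0 ≤ r → r ≤ 1 → M.Sm K (bs : ℝ) → ∀ ω₀ : M.Om,
      M.sys.Cnt (fun ω => 0 < M.law.p ω ∧ M.sys.Agr ({TNm.T 0 true} ∪ {TNm.Z (rf0 n) bs r 0} ∪ nD1 n bs) ω ω₀) {TNm.X r} (M.er K) := by

  obtain ⟨K₀, hK₀, hline⟩ := tr_fs_line n R₀
  set K₁ : ℝ := (2 * (R₀ + n + 1)) ^ (n + 1) + (n + 1) with hK₁d
  by_cases hR0 : 0 ≤ R₀
  swap
  · exact ⟨0, le_rfl, fun c₁ Cτ M hM => absurd (tr_geo_R_nonneg hM) hR0⟩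
  have hn0 : (0 : ℝ) ≤ n := Nat.cast_nonneg n
  have hK₁ : 0 ≤ K₁ := by positivity
  refine ⟨K₀ * K₁ + K₀ + K₁ + 4 * n + 1, by positivity, ?_⟩
  intro c₁ Cτ M hM bs r hbs hr0 hr1 hSm ω₀
  have hQ1 : 1 ≤ M.L ^ M.ε := tr_geo_one_le_Q hM
  have hL0 : 0 < M.L := tr_geo_L_pos hM
  have hKK : 0 ≤ K₀ * K₁ + K₀ + K₁ := by positivity
  have hs : 4 * (n : ℝ) * M.L ^ M.ε ≤ M.L ^ (bs : ℝ) := by
    have := tr_geo_sm_use hM (4 * n) 1 _ _ (by positivity) (by linarith) (by linarith) hSm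
    rwa [one_mul] at this
  have hB : 0 < 2 * M.L ^ M.ε * (R₀ + n + 1) := by positivity
  have hB1 : 1 ≤ 2 * M.L ^ M.ε * (R₀ + n + 1) := by nlinarith
  have h := hline c₁ Cτ M hM (0, true) (rf0 n) bs r 0 (2 * M.L ^ M.ε * (R₀ + n + 1))⁻¹ hr0 hr1 hs (inv_pos.2 hB) (inv_le_one_of_one_le₀ hB1)
    (fun ω => 0 < M.law.p ω ∧ M.sys.Agr ({TNm.T 0 true} ∪ {TNm.Z (rf0 n) bs r 0} ∪ nD1 n bs) ω ω₀) (fun ω hω => hω.1) (by
      intro ω ω' hω hω'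
      have hag := tr_geo_agr_trans _ _ _ _ _ hω.2 (tr_geo_agr_symm _ _ _ _ hω'.2)
      have h0 := (tr_geo_agr_T M _ _ _ _).1 (tr_geo_agr_mono M.sys _ _ (fun a ha => Finset.mem_union_left _ (Finset.mem_union_left _ ha)) _ _ hag)
      have hj := tr_geo_agr_mono M.sys _ _ (fun a ha => Finset.mem_union_left _ (Finset.mem_union_right _ ha)) _ _ hag
      have hD := tr_geo_agr_mono M.sys _ _ (fun a ha => Finset.mem_union_right _ ha) _ _ hag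
      exact ⟨h0, (tr_geo_agr_nD1 M bs ω ω' hD).1, hj⟩) (by
      intro ω _
      have h1 := tr_geo_trv_rbin hM bs hs (rf0 n) ω
      have h2 := tr_geo_trv_rbin_upd hM bs hs (rf0 n) ω 0 (ω.2 (0, true))
      have h3 := tr_geo_rbin_norm hM (rf0 n) bs ω 0
      have h4 := tr_geo_repl_low (2 * M.L ^ M.ε) (R₀ + n) (M.rbin (rf0 n) bs ω) 0 (M.fr 0 (ω.2 (0, true))) h1 h2 h3
      rw [inv_le_iff_one_le_mul₀ hB]
      linarith)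
  refine tr_geo_cnt_mono M.sys _ _ _ _ _ (fun _ h => h) ?_ h
  rw [inv_inv]
  have e1 : (2 * M.L ^ M.ε * (R₀ + n + 1)) ^ (n + 1) ≤ M.er K₁ := by
    refine le_trans (le_of_eq ?_) (tr_geo_er_le hM ((2 * (R₀ + n + 1)) ^ (n + 1)) ((n : ℝ) + 1) K₁ (by positivity) (by rw [hK₁d]; linarith) (by
      rw [hK₁d]
      have : 0 ≤ (2 * (R₀ + n + 1)) ^ (n + 1) := by positivity
      linarith))
    have e : M.L ^ (((n : ℝ) + 1) * M.ε) = (M.L ^ M.ε) ^ (n + 1) := by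
      rw [mul_comm, Real.rpow_mul hL0.le]
      norm_cast
    rw [e, ← mul_pow]
    congr 1
    ring
  calc M.er K₀ * (2 * M.L ^ M.ε * (R₀ + n + 1)) ^ (n + 1) ≤ M.er K₀ * M.er K₁ := mul_le_mul_of_nonneg_left e1 (tr_geo_er_nonneg hM _ hK₀)
    _ ≤ M.er (K₀ * K₁ + K₀ + K₁) := tr_geo_er_mul hM _ _ hK₀ hK₁
    _ ≤ _ := tr_geo_er_mono hM _ _ hKK (by linarith)

/-- `α'_j - ã α'_0 = (α'_j - â_j) - ã (α'_0 - â_0)` -/
theorem tr_fs_pi1_theta (Q' η A : ℝ) (ξh : Fin (n + 1) → E n) (hTr : Trv Q' ξh) (ζ ζh : E n) (hη : ‖ζh - ζ‖ ≤ η) (j : Fin (n + 1))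
    (h0 : coord ξh (vdir ζh) 0 ≠ 0) (hA : |coord ξh (vdir ζh) j / coord ξh (vdir ζh) 0| ≤ A) :
    |coord ξh (vdir ζ) j - coord ξh (vdir ζh) j / coord ξh (vdir ζh) 0 * coord ξh (vdir ζ) 0| ≤ (1 + A) * (Q' * η) := by
  have hQ' : 0 < Q' := tr_geo_trv_pos Q' ξh hTr
  have hA0 : 0 ≤ A := (abs_nonneg _).trans hA
  have hdiff : ∀ l, |coord ξh (vdir ζ) l - coord ξh (vdir ζh) l| ≤ Q' * η := by
    intro l
    have e1 := tr_geo_coord_sub _ ξh hTr (vdir ζ) (vdir ζh)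
    have e2 := tr_geo_coord_bound_one _ ξh hTr (vdir ζ - vdir ζh) l
    rw [e1] at e2
    simp only [Pi.sub_apply] at e2
    refine e2.trans ?_
    have e3 : ‖(vdir ζ - vdir ζh).1‖ / 2 + |(vdir ζ - vdir ζh).2| = ‖ζh - ζ‖ := by
      simp only [vdir, Prod.fst_sub, Prod.snd_sub, sub_self, abs_zero, add_zero]
      rw [← smul_sub, norm_smul, Real.norm_eq_abs, abs_two, norm_sub_rev]
      ring
    rw [e3]
    exact mul_le_mul_of_nonneg_left hη hQ'.le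
  have e : coord ξh (vdir ζ) j - coord ξh (vdir ζh) j / coord ξh (vdir ζh) 0 * coord ξh (vdir ζ) 0
      = (coord ξh (vdir ζ) j - coord ξh (vdir ζh) j)
        - coord ξh (vdir ζh) j / coord ξh (vdir ζh) 0 * (coord ξh (vdir ζ) 0 - coord ξh (vdir ζh) 0) := by
    field_simp
    ring
  rw [e]
  refine (abs_sub _ _).trans ?_
  rw [abs_mul]
  have e5 := mul_le_mul hA (hdiff 0) (abs_nonneg _) hA0
  have e6 := hdiff j
  linarith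

theorem tr_fs_pi1_num (Q D N : ℝ) (hQ1 : 1 ≤ Q) (hD1 : 1 ≤ D) (hN : 0 ≤ N) :
    2 * ((1 + 4 * Q ^ 2 * D) * (8 * N * Q + 2 * Q ^ 2)) + 2 ≤ (10 * (8 * N + 2) * D + 2) * (Q ^ 2 * Q ^ 2) := by
  have hQ2 : 1 ≤ Q ^ 2 := one_le_pow₀ hQ1
  have hQQ : Q ≤ Q ^ 2 := by nlinarith
  have hQD : 1 ≤ Q ^ 2 * D := by nlinarith
  have a1 : 1 + 4 * Q ^ 2 * D ≤ 5 * (Q ^ 2 * D) := by linarith
  have a2 : 8 * N * Q + 2 * Q ^ 2 ≤ (8 * N + 2) * Q ^ 2 := by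
    have := mul_le_mul_of_nonneg_left hQQ hN
    linarith
  have a3 : (1 + 4 * Q ^ 2 * D) * (8 * N * Q + 2 * Q ^ 2) ≤ 5 * (Q ^ 2 * D) * ((8 * N + 2) * Q ^ 2) :=
    mul_le_mul a1 a2 (by positivity) (by positivity)
  have a4 : 1 ≤ Q ^ 2 * Q ^ 2 := by nlinarith
  have a5 : 5 * (Q ^ 2 * D) * ((8 * N + 2) * Q ^ 2) = 5 * (8 * N + 2) * D * (Q ^ 2 * Q ^ 2) := by ring
  rw [a5] at a3
  linarith

/-- the variation of the projection label -/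
theorem tr_fs_pi1_key {M : TModel n} {R₀ c₁ Cτ : ℝ} (hM : M.Ok R₀ c₁ Cτ) (bs s r : ℚ) (j : Fin (n + 1)) (hs0 : 0 ≤ s) (hsr : s ≤ r) (hr1 : r ≤ 1) (hrs : r - s ≤ bs)
    (hs : 4 * (n : ℝ) * M.L ^ M.ε ≤ M.L ^ (bs : ℝ)) (ω ω' : M.Om) (hp : 0 < M.law.p ω) (hp' : 0 < M.law.p ω')
    (hag : M.sys.Agr ({TNm.T 0 true} ∪ {TNm.X s} ∪ nD1 n bs) ω ω') :
    |(M.gc (rf0 n) bs ω j - M.art bs j ω * M.gc (rf0 n) bs ω 0) - (M.gc (rf0 n) bs ω' j - M.art bs j ω' * M.gc (rf0 n) bs ω' 0)|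
      ≤ (1 + 4 * (M.L ^ M.ε) ^ 2 * (R₀ + n + 1) ^ 2) * (8 * n * M.L ^ M.ε + 2 * (M.L ^ M.ε) ^ 2) * ((2 : ℝ) ^ (sc M.L r))⁻¹ := by
  obtain ⟨Q, hQ⟩ : ∃ Q : ℝ, Q = M.L ^ M.ε := ⟨_, rfl⟩
  have hQ1 : 1 ≤ Q := hQ ▸ tr_geo_one_le_Q hM
  have hR : 0 ≤ R₀ := tr_geo_R_nonneg hM
  have hL : 0 < M.L := tr_geo_L_pos hM
  have hL1 : 1 ≤ M.L := by linarith [hM.L_ge]
  have hr0 : 0 ≤ r := hs0.trans hsr
  have hn0 : (0 : ℝ) ≤ n := Nat.cast_nonneg n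
  obtain ⟨wr, hwr⟩ : ∃ w : ℝ, w = ((2 : ℝ) ^ (sc M.L r))⁻¹ := ⟨_, rfl⟩
  obtain ⟨ws, hws⟩ : ∃ w : ℝ, w = ((2 : ℝ) ^ (sc M.L s))⁻¹ := ⟨_, rfl⟩
  obtain ⟨wb, hwb⟩ : ∃ w : ℝ, w = ((2 : ℝ) ^ (sc M.L bs))⁻¹ := ⟨_, rfl⟩
  have hwr0 : 0 < wr := by rw [hwr]; positivity
  have hws0 : 0 < ws := by rw [hws]; positivity
  have hwb0 : 0 < wb := by rw [hwb]; positivity
  have hLr : M.L ^ (-(r : ℝ)) ≤ wr := hwr ▸ tr_geo_sc_inv_ge M.L hM.L_ge r hr0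
  have hLw : M.L ^ (-1 : ℝ) ≤ wr := by
    refine le_trans ?_ hLr
    refine Real.rpow_le_rpow_of_exponent_le hL1 ?_
    have : (r : ℝ) ≤ 1 := by exact_mod_cast hr1
    linarith
  have h1 : M.L ^ (-1 + 2 * M.ε) ≤ Q ^ 2 * wr := by
    rw [Real.rpow_add hL, mul_comm]
    have : M.L ^ (2 * M.ε) = Q ^ 2 := by
      rw [hQ, ← Real.rpow_natCast, ← Real.rpow_mul hL.le]
      congr 1
      push_cast
      ring
    rw [this]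
    exact mul_le_mul_of_nonneg_left hLw (by positivity)
  have hsb : ws * wb ≤ 4 * wr := by
    have e1 : ws ≤ 2 * M.L ^ (-(s : ℝ)) := hws ▸ tr_geo_sc_inv_le M.L hM.L_ge s
    have e2 : wb ≤ 2 * M.L ^ (-(bs : ℝ)) := hwb ▸ tr_geo_sc_inv_le M.L hM.L_ge bs
    have e3 : M.L ^ (-(s : ℝ)) * M.L ^ (-(bs : ℝ)) ≤ M.L ^ (-(r : ℝ)) := by
      rw [← Real.rpow_add hL]
      refine Real.rpow_le_rpow_of_exponent_le hL1 ?_
      have : (r : ℝ) - s ≤ bs := by exact_mod_cast hrs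
      linarith
    calc ws * wb ≤ (2 * M.L ^ (-(s : ℝ))) * (2 * M.L ^ (-(bs : ℝ))) :=
          mul_le_mul e1 e2 hwb0.le (by positivity)
      _ = 4 * (M.L ^ (-(s : ℝ)) * M.L ^ (-(bs : ℝ))) := by ring
      _ ≤ 4 * wr := by linarith
  obtain ⟨A, hA⟩ : ∃ A : ℝ, A = 4 * Q ^ 2 * (R₀ + n + 1) ^ 2 := ⟨_, rfl⟩
  have hA0 : 0 ≤ A := by rw [hA]; positivity
  rw [← hwr, ← hQ, ← hA]
  obtain ⟨hTX, hD⟩ := (tr_geo_agr_union M.sys _ _ ω ω').1 hag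
  obtain ⟨hT, hX⟩ := (tr_geo_agr_union M.sys _ _ ω ω').1 hTX
  replace hT := (tr_geo_agr_T M 0 true ω ω').1 hT
  replace hX := (tr_geo_agr_X M s ω ω').1 hX
  obtain ⟨hb, -, hart⟩ := tr_geo_agr_nD1 M bs ω ω' hD
  obtain ⟨-, -, hΔ0⟩ := tr_geo_cell_close _ _ _ hX
  rw [← hws] at hΔ0
  obtain ⟨c, hc, hgc⟩ := tr_geo_inc_gc hM bs hs (rf0 n) ω ω' hp hp' (0, true) hT hb
  obtain ⟨Δ, hΔ⟩ : ∃ Δ : ℝ, Δ = (M.pos ω.1).2 - (M.pos ω'.1).2 := ⟨_, rfl⟩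
  rw [← hΔ] at hgc hΔ0
  obtain ⟨h0, hab⟩ := tr_fs_art hM bs hs ω
  have harA : |M.art bs j ω| ≤ A := by rw [hA, hQ]; exact hab j
  have hθ := tr_fs_pi1_theta (2 * M.L ^ M.ε) (n * wb) A _ (tr_geo_trv_rbin hM bs hs (rf0 n) ω) (M.fr 0 (ω.2 (0, true))) _
    (hwb ▸ tr_geo_binR_dist (sc M.L bs) (M.fr 0 (ω.2 (0, true)))) j h0 harA
  rw [← hart j]
  obtain ⟨ar, har⟩ : ∃ ar : ℝ, ar = M.art bs j ω := ⟨_, rfl⟩
  have har' : coord (M.rbin (rf0 n) bs ω) (vdir (binR (sc M.L bs) (M.fr 0 (ω.2 (0, true))))) j /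
      coord (M.rbin (rf0 n) bs ω) (vdir (binR (sc M.L bs) (M.fr 0 (ω.2 (0, true))))) 0 = ar := by
    rw [har]; rfl
  rw [har'] at hθ
  rw [← har] at harA ⊢
  rw [← hQ] at hθ
  obtain ⟨α, hα⟩ : ∃ α, α = coord (M.rbin (rf0 n) bs ω) (vdir (M.fr 0 (ω.2 (0, true)))) := ⟨_, rfl⟩
  rw [← hα] at hθ
  have hgc' : M.gc (rf0 n) bs ω - M.gc (rf0 n) bs ω' = Δ • α + c := by rw [hα]; exact hgc
  have hcl : ∀ l, |c l| ≤ 2 * (Q ^ 2 * wr) := fun l =>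
    le_trans (le_trans (Finset.single_le_sum (f := fun i => |c i|) (fun i _ => abs_nonneg _) (Finset.mem_univ l)) hc) (by linarith)
  have hj := congrFun hgc' j
  have hz := congrFun hgc' 0
  simp only [Pi.sub_apply, Pi.add_apply, Pi.smul_apply, smul_eq_mul] at hj hz
  have e : (M.gc (rf0 n) bs ω j - ar * M.gc (rf0 n) bs ω 0) - (M.gc (rf0 n) bs ω' j - ar * M.gc (rf0 n) bs ω' 0)
      = Δ * (α j - ar * α 0) + (c j - ar * c 0) := by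
    have : (M.gc (rf0 n) bs ω j - ar * M.gc (rf0 n) bs ω 0) - (M.gc (rf0 n) bs ω' j - ar * M.gc (rf0 n) bs ω' 0)
        = (M.gc (rf0 n) bs ω j - M.gc (rf0 n) bs ω' j) - ar * (M.gc (rf0 n) bs ω 0 - M.gc (rf0 n) bs ω' 0) := by ring
    rw [this, hj, hz]
    ring
  rw [e]
  have t1 : |Δ * (α j - ar * α 0)| ≤ ws * ((1 + A) * (2 * Q * (n * wb))) := by
    rw [abs_mul]
    exact mul_le_mul hΔ0 hθ (abs_nonneg _) hws0.le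
  have t2 : |c j - ar * c 0| ≤ (1 + A) * (2 * (Q ^ 2 * wr)) := by
    refine (abs_sub _ _).trans ?_
    rw [abs_mul]
    have := mul_le_mul harA (hcl 0) (abs_nonneg _) hA0
    have := hcl j
    linarith
  refine (abs_add_le _ _).trans ?_
  have t3 : ws * ((1 + A) * (2 * Q * (n * wb))) ≤ (1 + A) * (2 * Q * n) * (4 * wr) := by
    have : ws * ((1 + A) * (2 * Q * (n * wb))) = (1 + A) * (2 * Q * n) * (ws * wb) := by ring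
    rw [this]
    exact mul_le_mul_of_nonneg_left hsb (by positivity)
  have t4 : (1 + A) * (8 * n * Q + 2 * Q ^ 2) * wr = (1 + A) * (2 * Q * n) * (4 * wr) + (1 + A) * (2 * (Q ^ 2 * wr)) := by ring
  rw [t4]
  linarith

/-- L-TR-FS-PI1 (~250 l.).   `ω, ω' ∈ E`: same `T = T_0'`, same cell at level `ks = sc L s`, same `ξh = rbin`, `ζh`, `ã = art` (`tr_geo_agr_nD1`).   `u = gc_j - ã gc_0`.   `tr_geo_inc_gc` (`q = (0,true)`):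
`u(ω) - u(ω') = Δt (α'_j - ã α'_0) + c_j - ã c_0`, `|Δt| ≤ 2^{-ks}` (`tr_geo_cell_close`), `∑|c| ≤ 2 L^{-1+2ε}`.
`α' - â = coord ξh (2 (fr 0 T - ζh), 0)` (`tr_geo_coord_sub`), each entry `≤ 2Q ‖fr 0 T - ζh‖ ≤ 2Q n 2^{-kb}` (`tr_geo_coord_bound_one`, `tr_geo_binR_dist`); `â_j = ã â_0` (`tr_fs_art`: `â_0 ≠ 0`), so `|α'_j - ã α'_0| ≤ (1+|ã|) 2Q n 2^{-kb}`.
`2^{kr} 2^{-ks} 2^{-kb} ≤ 4 L^{r-s-bs} ≤ 4`, `2^{kr} L^{-1+2ε} ≤ Q²`.   `tr_geo_cnt_Pi` with `lam = (1+|ã|)(8 n Q + 2 Q²)`, `|ã| ≤ 4Q² (R₀+n+1)²` (`tr_fs_art`). -/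
theorem tr_fs_fin_pi1 (n : ℕ) (R₀ : ℝ) : ∃ K : ℝ, 0 ≤ K ∧ ∀ (c₁ Cτ : ℝ) (M : TModel n), M.Ok R₀ c₁ Cτ →
    ∀ (bs s r : ℚ) (j : Fin (n + 1)), 0 < bs → 0 ≤ s → s ≤ r → r ≤ 1 → r - s ≤ bs → M.Sm K (bs : ℝ) → ∀ ω₀ : M.Om,
      M.sys.Cnt (fun ω => 0 < M.law.p ω ∧ M.sys.Agr ({TNm.T 0 true} ∪ {TNm.X s} ∪ nD1 n bs) ω ω₀) {TNm.Pi bs r j} (M.er K) := by
  refine ⟨10 * (8 * n + 2) * (|R₀| + n + 1) ^ 2 + 6, by positivity, ?_⟩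
  intro c₁ Cτ M hM bs s r j hbs hs0 hsr hr1 hrs hSm ω₀
  have hQ1 : 1 ≤ M.L ^ M.ε := tr_geo_one_le_Q hM
  have hR : 0 ≤ R₀ := tr_geo_R_nonneg hM
  have hL : 0 < M.L := tr_geo_L_pos hM
  have hn0 : (0 : ℝ) ≤ n := Nat.cast_nonneg n
  have hs : 4 * (n : ℝ) * M.L ^ M.ε ≤ M.L ^ (bs : ℝ) := by
    have := tr_geo_sm_use hM (4 * (n : ℝ)) 1 _ _ (by positivity) ?_ ?_ hSm
    · rwa [one_mul] at this
    · have : (1 : ℝ) ≤ (|R₀| + n + 1) ^ 2 := one_le_pow₀ (by have := abs_nonneg R₀; linarith)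
      nlinarith
    · have : (0 : ℝ) ≤ 10 * (8 * n + 2) * (|R₀| + n + 1) ^ 2 := by positivity
      linarith
  have hcnt := tr_geo_cnt_Pi M (fun ω => 0 < M.law.p ω ∧ M.sys.Agr ({TNm.T 0 true} ∪ {TNm.X s} ∪ nD1 n bs) ω ω₀) bs r j
    ((1 + 4 * (M.L ^ M.ε) ^ 2 * (R₀ + n + 1) ^ 2) * (8 * n * M.L ^ M.ε + 2 * (M.L ^ M.ε) ^ 2)) (by positivity)
    (fun ω ω' h h' => tr_fs_pi1_key hM bs s r j hs0 hsr hr1 hrs hs ω ω' h.1 h'.1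
      (tr_geo_agr_trans _ _ _ _ _ h.2 (tr_geo_agr_symm _ _ _ _ h'.2)))
  refine tr_geo_cnt_mono _ _ _ _ _ _ (fun _ h => h) ?_ hcnt
  have hD1 : 1 ≤ (R₀ + n + 1) ^ 2 := one_le_pow₀ (by linarith)
  have hE : (10 * (8 * n + 2) * (R₀ + n + 1) ^ 2 + 2) * M.L ^ ((4 : ℝ) * M.ε) ≤ M.er (10 * (8 * n + 2) * (|R₀| + n + 1) ^ 2 + 6) := by
    refine tr_geo_er_le hM _ _ _ (by positivity) ?_ ?_
    · rw [abs_of_nonneg hR]
      linarith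
    · have : (0 : ℝ) ≤ 10 * (8 * n + 2) * (|R₀| + n + 1) ^ 2 := by positivity
      linarith
  have hQp : M.L ^ ((4 : ℝ) * M.ε) = (M.L ^ M.ε) ^ 2 * (M.L ^ M.ε) ^ 2 := by
    rw [← pow_add, ← Real.rpow_natCast, ← Real.rpow_mul hL.le]
    congr 1
    push_cast
    ring
  refine le_trans ?_ hE
  rw [hQp]
  exact tr_fs_pi1_num _ _ _ hQ1 hD1 hn0

/-- L-TR-FS-PI2 (~100 l.).   `|gc_j - gc_j'|, |gc_0 - gc_0'| ≤ 2^{-k}` (`tr_geo_agr_Z`, `tr_geo_floor_close`), `ã` the same (`tr_geo_agr_nD1`): `tr_geo_cnt_Pi` with `lam = 1 + 4Q² (R₀+n+1)²` (`tr_fs_art`). -/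
theorem tr_fs_fin_pi2 (n : ℕ) (R₀ : ℝ) : ∃ K : ℝ, 0 ≤ K ∧ ∀ (c₁ Cτ : ℝ) (M : TModel n), M.Ok R₀ c₁ Cτ →
    ∀ (bs r : ℚ) (j : Fin (n + 1)), 0 < bs → M.Sm K (bs : ℝ) → ∀ ω₀ : M.Om,
      M.sys.Cnt (fun ω => M.sys.Agr ({TNm.Z (rf0 n) bs r 0} ∪ {TNm.Z (rf0 n) bs r j} ∪ nD1 n bs) ω ω₀) {TNm.Pi bs r j} (M.er K) := by

  refine ⟨4 + 8 * (R₀ + n + 1) ^ 2 + 4 * n, by positivity, ?_⟩
  intro c₁ Cτ M hM bs r j hbs hSm ω₀
  have hQ1 : 1 ≤ M.L ^ M.ε := tr_geo_one_le_Q hM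
  have hR0 : 0 ≤ R₀ := tr_geo_R_nonneg hM
  have hn0 : (0 : ℝ) ≤ n := Nat.cast_nonneg n
  have hL0 : 0 < M.L := tr_geo_L_pos hM
  have hs : 4 * (n : ℝ) * M.L ^ M.ε ≤ M.L ^ (bs : ℝ) := by
    have := tr_geo_sm_use hM (4 * n) 1 _ _ (by positivity) (by nlinarith [sq_nonneg (R₀ + n + 1)]) (by nlinarith [sq_nonneg (R₀ + n + 1)]) hSm
    rwa [one_mul] at this
  have h := tr_geo_cnt_Pi M (fun ω => M.sys.Agr ({TNm.Z (rf0 n) bs r 0} ∪ {TNm.Z (rf0 n) bs r j} ∪ nD1 n bs) ω ω₀) bs r j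
    (1 + 4 * (M.L ^ M.ε) ^ 2 * (R₀ + n + 1) ^ 2) (by positivity) (by
    intro ω ω' hω hω'
    have hag := tr_geo_agr_trans _ _ _ _ _ hω (tr_geo_agr_symm _ _ _ _ hω')
    have h0 := (tr_geo_agr_Z M _ _ _ _ _ _).1 (tr_geo_agr_mono M.sys _ _ (fun a ha => Finset.mem_union_left _ (Finset.mem_union_left _ ha)) _ _ hag)
    have hj := (tr_geo_agr_Z M _ _ _ _ _ _).1 (tr_geo_agr_mono M.sys _ _ (fun a ha => Finset.mem_union_left _ (Finset.mem_union_right _ ha)) _ _ hag)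
    have hD := tr_geo_agr_mono M.sys _ _ (fun a ha => Finset.mem_union_right _ ha) _ _ hag
    have hart := (tr_geo_agr_nD1 M bs ω ω' hD).2.2 j
    have c0 := tr_geo_floor_close _ _ _ h0
    have cj := tr_geo_floor_close _ _ _ hj
    have ha := (tr_fs_art hM bs hs ω').2 j
    rw [hart]
    have e : (M.gc (rf0 n) bs ω j - M.art bs j ω' * M.gc (rf0 n) bs ω 0) - (M.gc (rf0 n) bs ω' j - M.art bs j ω' * M.gc (rf0 n) bs ω' 0)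
        = (M.gc (rf0 n) bs ω j - M.gc (rf0 n) bs ω' j) - M.art bs j ω' * (M.gc (rf0 n) bs ω 0 - M.gc (rf0 n) bs ω' 0) := by ring
    rw [e]
    refine (abs_sub _ _).trans ?_
    rw [abs_mul, add_mul, one_mul]
    exact add_le_add cj (mul_le_mul ha c0 (abs_nonneg _) (by positivity)))
  refine tr_geo_cnt_mono M.sys _ _ _ _ _ (fun _ h => h) ?_ h
  refine le_trans ?_ (tr_geo_er_le hM (4 + 8 * (R₀ + n + 1) ^ 2) 2 _ (by positivity) (by linarith) (by nlinarith [sq_nonneg (R₀ + n + 1)]))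
  have e : M.L ^ (2 * M.ε) = (M.L ^ M.ε) ^ 2 := by
    rw [mul_comm, Real.rpow_mul hL0.le]
    norm_cast
  rw [e]
  nlinarith [sq_nonneg (R₀ + n + 1), mul_nonneg (sub_nonneg.2 hQ1) (sub_nonneg.2 hQ1)]

/-- L-TR-FS-ONE (~120 l.).   `K` of `tr_geo_ratio_strip`, centre `ζ' = rfr (rf0 n) ω i` (`tr_geo_coord_vdir`: its coordinates are `Pi.single i 1`, the two ratios are `0`, the normalising coefficient is `1`).
`tr_fs_r_gt`: the event implies `G ω (ω.2 (i,true))`, `G ω T := |rat i j ω T - 0/1| ≤ L^{-u} ∧ |rat i k ω T - 0/1| ≤ L^{-u}`; `G` does not depend on the coordinate `(i, true)` of `ω` (`rat` reads only the tubes `(l, false)`); `tr_geo_law_one`; `tr_info_pr_congr`. -/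
theorem tr_fs_fin_onepos (n : ℕ) (R₀ : ℝ) : ∃ K : ℝ, 0 ≤ K ∧ ∀ (c₁ Cτ : ℝ) (M : TModel n), M.Ok R₀ c₁ Cτ → 0 ≤ c₁ → c₁ ≤ 1 →
    ∀ (i j k : Fin (n + 1)), j ≠ i → k ≠ i → j ≠ k → ∀ u : ℝ, 0 ≤ u → u ≤ 1 / 8 → M.Sm K u →
      M.law.pr (fun ω => u < M.xv (TEx.r i j) ω ∧ u < M.xv (TEx.r i k) ω) ≤ M.er K * M.L ^ (-c₁ * u) := by
  obtain ⟨K, hK, h⟩ := tr_geo_ratio_strip n R₀
  refine ⟨K, hK, ?_⟩
  intro c₁ Cτ M hM hc hc1 i j k hj hk hjk u hu0 hu hs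
  have hL : 1 < M.L := by linarith [hM.L_ge]
  obtain ⟨G, hG⟩ : ∃ G : M.Om → M.τ → Prop, G = fun ω T => |M.rat i j ω T| ≤ M.L ^ (-u) ∧ |M.rat i k ω T| ≤ M.L ^ (-u) := ⟨_, rfl⟩
  have h1 : M.law.pr (fun ω => G ω (ω.2 (i, true))) ≤ M.er K * M.L ^ (-c₁ * u) := by
    apply tr_geo_law_one M (i, true) G
    · intro ω T T'
      have e1 : M.rfr (rf0 n) (ω.1, Function.update ω.2 (i, true) T') = M.rfr (rf0 n) ω := by
        funext l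
        unfold TModel.rfr rf0
        have hne : ((l, false) : Fin (n + 1) × Bool) ≠ (i, true) := by
          intro h0
          have := congrArg Prod.snd h0
          simp at this
        simp only [Function.update_of_ne hne]
      simp only [hG, TModel.rat, e1]
    · intro ω
      have htr := tr_geo_trv_rfr hM (rf0 n) ω
      have hcv := tr_geo_coord_vdir _ _ htr i
      have h2 := h c₁ Cτ M hM hc hc1 i j k hj hk hjk ω (M.rfr (rf0 n) ω i) (hM.fr_bd _ _) (by rw [hcv]; simp) u hu0 hu hs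
      rw [hcv] at h2
      simp only [Pi.single_eq_same, Pi.single_eq_of_ne hj, Pi.single_eq_of_ne hk, zero_div, sub_zero] at h2
      rw [hG]
      convert h2
  refine le_trans (tr_info_pr_congr M.law _ _ ?_) h1
  rintro ω - ⟨g1, g2⟩
  rw [hG]
  exact ⟨(tr_fs_r_gt M hL i j ω hu0 g1).le, (tr_fs_r_gt M hL i k ω hu0 g2).le⟩

end Claimed.Agent.R257.TR
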